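import Crest.Agent.R309.Prob
import Crest.Agent.R309.Tab
import Crest.Agent.R317.Parse
import Crest.Prelude.Def_Randomized

/-!
# Row 309: S0479 from the approximate counter

Parse `m, n` (`readU` capped by the input length), the margins and the `m * n` bounds (`parseN readNat`,
`R317/Parse.lean`), put `N = |x| + 64` and output `ratCode (est (tI rs cs b, N, τ) : ℚ)` (`PT.ratCode_intCast`,
`PT.polyTime₂`); the tape polynomial is `(X + 64) ^ r`.  `tI_wf` (every code has length `≥ 2 + 2 * size`),
`cnt_tI`, `1 / N ≤ ε` (unary block), `2 ^ -N ≤ 1 / δ.den ≤ δ`, `uniformProb_eq_Ex`, `ind_not`.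
-/

set_option autoImplicit false

namespace Crest.Agent.R309

open Crest.Agent.Lib.PolyTime
open Crest.Enc Crest.FinProb Crest.Randomized Crest.Tables

open Crest.Agent.R317 in
/-- Read the dimensions, the margins and the bounds. -/
def parse79 (x : List Bool) : Inst :=
  let p1 := readU x.length x
  let p2 := readU x.length p1.2
  let p3 := parseN readNat p1.1 p2.2
  let p4 := parseN readNat p2.1 p3.2
  let p5 := parseN readNat (p1.1 * p2.1) p4.2
  tabInst p1.1 p2.1 p3.1 p4.1 (List.replicate (p1.1 * p2.1) 0) p5.1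

open Crest.Agent.R317 in
theorem pt_parse79 : PT parse79 := by
  have hN : ∀ {k : List Bool → ℕ} {l : List Bool → List Bool}, PT k → PT l →
      PT fun a => parseN readNat (k a) (l a) := fun hk hl =>
    parseN_PT (rd := fun _ => readNat) (by fun_prop) (fun _ l => length_readNat_le l) hk hl
  have h1 : PT fun x : List Bool => readU x.length x := by fun_prop
  have h2 : PT fun x : List Bool => readU x.length (readU x.length x).2 := by fun_prop
  have h3 := hN h1.fst h2.snd
  have h4 := hN h2.fst h3.snd
  have h5 := hN (PT.nat_mul h1.fst h2.fst) h4.snd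
  exact pt_tabInst h1.fst h2.fst h3.fst h4.fst
    (PT.replicate (PT.nat_mul h1.fst h2.fst) (PT.const _)) h5.fst

theorem m79_lt_two_pow (k : ℕ) : k < 2 ^ (natCode k).length := by
  have h : k.size ≤ (natCode k).length := by
    rw [← Nat.size_eq_bits_len, natCode, List.length_append]
    induction k.bits with
    | nil => simp
    | cons a l ih => simp only [List.map_cons, List.flatten_cons, List.length_append,
        List.length_cons] at ih ⊢; omega
  exact Nat.size_le.1 h

theorem m79_length_le (l : List ℕ) : l.length ≤ (l.map natCode).flatten.length := by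
  induction l with
  | nil => simp
  | cons a l ih =>
    have : 2 ≤ (natCode a).length := by simp [natCode]
    simp only [List.map_cons, List.flatten_cons, List.length_append, List.length_cons]
    omega

theorem m79_mem_le {l : List ℕ} {k N : ℕ} (hk : k ∈ l) (hN : (l.map natCode).flatten.length ≤ N) :
    k ≤ 2 ^ N := by
  have h1 : (natCode k).length ≤ (l.map natCode).flatten.length :=
    (List.sublist_flatten_of_mem (List.mem_map_of_mem hk)).length_le
  exact (m79_lt_two_pow k).le.trans (Nat.pow_le_pow_right (by norm_num) (h1.trans hN))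

theorem boundsCode_eq {m n : ℕ} (b : Fin m → Fin n → ℕ) :
    boundsCode b = ((List.ofFn fun i => List.ofFn (b i)).flatten.map natCode).flatten := by
  rw [boundsCode, List.map_flatten, List.flatten_flatten, List.map_ofFn, List.map_ofFn]
  rfl

open Crest.Agent.R317 in
theorem parse79_eq {m n : ℕ} (rs : Fin m → ℕ) (cs : Fin n → ℕ) (b : Fin m → Fin n → ℕ)
    (r : List Bool) : parse79 (marginsCode rs cs ++ boundsCode b ++ r) = tI rs cs b := by
  have hN : ∀ (l : List ℕ) (k : ℕ) (r : List Bool), l.length = k →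
      parseN readNat k ((l.map natCode).flatten ++ r) = (l.map fun x : ℕ => (x : ℤ), r) := by
    rintro l k r rfl
    exact parseN_flatten readNat natCode _ l (fun a _ r => readNat_natCode a r) r
  have h1 := m79_length_le (List.ofFn rs)
  have h2 := m79_length_le (List.ofFn cs)
  have h3 : (List.ofFn fun i => List.ofFn (b i)).flatten.length = m * n := by
    rw [← length_flat b, flat, List.length_map]
  rw [List.length_ofFn] at h1 h2
  have hm : m ≤ (marginsCode rs cs ++ boundsCode b ++ r).length := by
    simp only [marginsCode, List.length_append]; omega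
  have hn : n ≤ (marginsCode rs cs ++ boundsCode b ++ r).length := by
    simp only [marginsCode, List.length_append]; omega
  unfold parse79
  generalize (marginsCode rs cs ++ boundsCode b ++ r).length = c at hm hn
  simp only [marginsCode, boundsCode_eq, List.append_assoc, readU_natCode c m hm,
    readU_natCode c n hn, hN _ m _ List.length_ofFn, hN _ n _ List.length_ofFn, hN _ _ _ h3]
  rw [List.map_ofFn, List.map_ofFn]
  rfl

theorem m79_wf {m n : ℕ} (rs : Fin m → ℕ) (cs : Fin n → ℕ) (b : Fin m → Fin n → ℕ)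
    (r : List Bool) :
    (tI rs cs b).WF ((marginsCode rs cs ++ boundsCode b ++ r).length + 64) := by
  have h1 := m79_length_le (List.ofFn rs)
  have h2 := m79_length_le (List.ofFn cs)
  have h3 := m79_length_le (List.ofFn fun i => List.ofFn (b i)).flatten
  have h4 : (List.ofFn fun i => List.ofFn (b i)).flatten.length = m * n := by
    rw [← length_flat b, flat, List.length_map]
  rw [List.length_ofFn] at h1 h2
  rw [h4] at h3
  refine tI_wf rs cs b ?_ (fun i => m79_mem_le (List.mem_ofFn.2 ⟨i, rfl⟩) ?_)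
    (fun j => m79_mem_le (List.mem_ofFn.2 ⟨j, rfl⟩) ?_)
    (fun i j => m79_mem_le (l := (List.ofFn fun i => List.ofFn (b i)).flatten)
      (List.mem_flatten.2 ⟨_, List.mem_ofFn.2 ⟨i, rfl⟩, List.mem_ofFn.2 ⟨j, rfl⟩⟩) ?_) <;>
  · simp only [marginsCode, boundsCode_eq, List.length_append]; omega

theorem main79 {est : Inst × ℕ × List Bool → ℤ} {r₀ : ℕ} (he : EstSpec est r₀) :
    ∃ (A : List Bool × List Bool → List Bool) (r : Polynomial ℕ), RandPolyTime A ∧
      ∀ (m n : ℕ) (rs : Fin m → ℕ) (cs : Fin n → ℕ) (b : Fin m → Fin n → ℕ) (ε δ : ℚ),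
        0 < ε → ε < 1 → 0 < δ → δ < 1 →
        (∀ ω : Fin (r.eval (marginsCode rs cs ++ boundsCode b ++ ratCode ε ++ ratCode δ ++ List.replicate ⌈ε⁻¹⌉₊ true).length) → Bool,
          ∃ z : ℚ, 0 ≤ z ∧ A (marginsCode rs cs ++ boundsCode b ++ ratCode ε ++ ratCode δ ++ List.replicate ⌈ε⁻¹⌉₊ true, List.ofFn ω) = ratCode z) ∧
        (numBoundedTables rs cs b = 0 →
          ∀ ω : Fin (r.eval (marginsCode rs cs ++ boundsCode b ++ ratCode ε ++ ratCode δ ++
              List.replicate ⌈ε⁻¹⌉₊ true).length) → Bool,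
            A (marginsCode rs cs ++ boundsCode b ++ ratCode ε ++ ratCode δ ++
              List.replicate ⌈ε⁻¹⌉₊ true, List.ofFn ω) = ratCode 0) ∧
        1 - (δ : ℝ) ≤ uniformProb {ω : Fin (r.eval (marginsCode rs cs ++ boundsCode b ++ ratCode ε ++
              ratCode δ ++ List.replicate ⌈ε⁻¹⌉₊ true).length) → Bool |
            ∃ z : ℚ, A (marginsCode rs cs ++ boundsCode b ++ ratCode ε ++ ratCode δ ++
                List.replicate ⌈ε⁻¹⌉₊ true, List.ofFn ω) = ratCode z ∧
              (1 - ε) * numBoundedTables rs cs b ≤ z ∧ z ≤ (1 + ε) * numBoundedTables rs cs b} := by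
  refine ⟨fun p => ratCode (est (parse79 p.1, p.1.length + 64, p.2) : ℚ),
    (Polynomial.X + Polynomial.C 64) ^ r₀, ?_, ?_⟩
  · exact PT.polyTime₂ (PT.ratCode_intCast (he.pt.comp
      (PT.pair (pt_parse79.comp (by fun_prop)) (by fun_prop))))
  intro m n rs cs b ε δ hε _ hδ _
  set x := marginsCode rs cs ++ boundsCode b ++ ratCode ε ++ ratCode δ ++
    List.replicate ⌈ε⁻¹⌉₊ true with hx
  have hx' : x = marginsCode rs cs ++ boundsCode b ++
      (ratCode ε ++ ratCode δ ++ List.replicate ⌈ε⁻¹⌉₊ true) := by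
    simp only [hx, List.append_assoc]
  have hp : parse79 x = tI rs cs b := by rw [hx']; exact parse79_eq rs cs b _
  have hwf : (tI rs cs b).WF (x.length + 64) := by rw [hx']; exact m79_wf rs cs b _
  simp only [hp]
  refine ⟨fun ω => ⟨_, by exact_mod_cast he.nonneg _, rfl⟩, fun h0 ω => ?_, ?_⟩
  · rw [he.zero _ _ _ hwf (by rw [cnt_tI, h0]), Int.cast_zero]
  set N := x.length + 64 with hN
  have hL : N ^ r₀ ≤ ((Polynomial.X + Polynomial.C 64) ^ r₀ : Polynomial ℕ).eval x.length := by
    simp [hN]
  have hgood := he.good _ N _ hwf (by omega) hL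
  rw [cnt_tI] at hgood
  have hεN : 1 ≤ ε * N := by
    have h1 : ⌈ε⁻¹⌉₊ ≤ N := by
      simp only [hN, hx, List.length_append, List.length_replicate]; omega
    have h2 : ε⁻¹ ≤ N := Nat.ceil_le.1 h1
    rwa [inv_le_iff_one_le_mul₀' hε] at h2
  have hδN : (1 / 2 : ℝ) ^ N ≤ δ := by
    have h1 : δ.den ≤ 2 ^ N := by
      refine (m79_lt_two_pow _).le.trans (Nat.pow_le_pow_right (by norm_num) ?_)
      simp only [hN, hx, ratCode, List.length_append, List.length_cons]; omega
    have h2 : (δ.den : ℝ) ≤ 2 ^ N := by exact_mod_cast h1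
    have h3 : (1 : ℝ) ≤ δ.num := by exact_mod_cast Rat.num_pos.2 hδ
    have h4 : (0 : ℝ) < δ.den := by exact_mod_cast δ.den_pos
    rw [one_div_pow, Rat.cast_def]
    gcongr
  rw [uniformProb_eq_Ex _ fun τ => ∃ z : ℚ, ratCode (est (tI rs cs b, N, τ) : ℚ) = ratCode z ∧
    (1 - ε) * numBoundedTables rs cs b ≤ z ∧ z ≤ (1 + ε) * numBoundedTables rs cs b]
  refine le_trans ?_ (Ex_mono (F := fun τ => 1 - ind ((numBoundedTables rs cs b : ℤ) <
    N * |est (tI rs cs b, N, τ) - numBoundedTables rs cs b|)) fun τ _ => ?_)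
  · rw [Ex_sub, Ex_const]
    linarith
  · rw [← ind_not]
    refine ind_mono fun h => ⟨_, rfl, ?_⟩
    have h1 : (N : ℚ) * |(est (tI rs cs b, N, τ) : ℚ) - numBoundedTables rs cs b| ≤
        numBoundedTables rs cs b := by exact_mod_cast not_lt.1 h
    have h2 : |(est (tI rs cs b, N, τ) : ℚ) - numBoundedTables rs cs b| ≤
        ε * numBoundedTables rs cs b :=
      calc _ ≤ ε * N * |(est (tI rs cs b, N, τ) : ℚ) - numBoundedTables rs cs b| :=
            le_mul_of_one_le_left (abs_nonneg _) hεN
        _ ≤ _ := by rw [mul_assoc]; exact mul_le_mul_of_nonneg_left h1 hε.le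
    rw [abs_le] at h2
    constructor <;> linarith [h2.1, h2.2]

end Crest.Agent.R309
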