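import Crest.Agent.R309.MainAux
import Crest.Agent.R309.Str
import Crest.Agent.R309.Tab
import Crest.Agent.R317.Parse
import Crest.Prelude.Def_Randomized

/-!
# Row 309: S0480 from the uniform chain

Parse `m, n` and the margins.  `L = |x|` (the total is `< 2 ^ L`), `N = 6 (|x| + 4) ^ 3 + 64`,
`I = tI rs cs (fun _ _ => 2 ^ L - 1)` (`Full I L`, built by `tabInst` with `replicate`), `t = 6 N` steps of block
length `N ^ r` from `X₀ (I, L, N)` (`pt_foldT` with `ChainSpec.len`), output
`natCode m ++ natCode n ++ ((dec (m n) L X).map fun z => natCode z.natAbs).flatten = matrixCode`.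
The output is always a table (`mem₀`, `mem`, `dec_mem_sol`, `exists_flat`, `flat_mem_sol`; `exists_isTable` for
nonemptiness); the output is `matrixCode X` iff the string is `encS L (flat X)` (`matrixCode` is injective,
`dec_inj`); `cnt_tI`, `numBoundedTables_congr`, `card_Val ≤ 2 ^ (m n L)`, `(3/4) ^ (6 N) ≤ 2 ^ (-2 N)`.
-/

set_option autoImplicit false

namespace Crest.Agent.R309

open Crest.Agent.Lib.PolyTime
open Crest.Enc Crest.FinProb Crest.Randomized Crest.Tables

theorem matrixCode_eq {m n : ℕ} (X : Fin m → Fin n → ℕ) :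
    matrixCode X = natCode m ++ natCode n ++ ((flat X).map fun z => natCode z.natAbs).flatten := by
  simp only [matrixCode, flat, List.map_map, Function.comp_def, Int.natAbs_natCast, List.map_flatten, List.map_ofFn,
    List.flatten_flatten]

theorem matrixCode_inj {m n : ℕ} {X X' : Fin m → Fin n → ℕ} (h : matrixCode X = matrixCode X') : X = X' := by
  rw [matrixCode_eq, matrixCode_eq, List.append_cancel_left_eq] at h
  have key : ∀ X : Fin m → Fin n → ℕ, R317.parseN readNat (m * n)
      (((flat X).map fun z => natCode z.natAbs).flatten ++ []) = ((flat X).map fun z => (z.natAbs : ℤ), []) := by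
    intro X
    rw [← length_flat X]
    exact R317.parseN_flatten readNat (fun z : ℤ => natCode z.natAbs) (fun z => (z.natAbs : ℤ)) (flat X)
      (fun a _ r => readNat_natCode _ r) []
  have h1 := key X
  rw [h, key X'] at h1
  apply flat_injective
  have h2 := (Prod.ext_iff.1 h1).1
  simpa [flat, List.map_map, Function.comp_def] using h2.symm

/-- the parsed margins -/
def parse80 (x : List Bool) : ℕ × ℕ × List ℤ × List ℤ :=
  let p₁ := R317.readU x.length x
  let p₂ := R317.readU x.length p₁.2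
  let p₃ := R317.parseN readNat p₁.1 p₂.2
  let p₄ := R317.parseN readNat p₂.1 p₃.2
  (p₁.1, p₂.1, p₃.1, p₄.1)

theorem pt_parse80 : PT parse80 := by
  have h₁ : PT fun x : List Bool => R317.readU x.length x := by fun_prop
  have h₂ : PT fun x : List Bool => R317.readU x.length (R317.readU x.length x).2 := by fun_prop
  have h₃ : PT fun x : List Bool => R317.parseN readNat (R317.readU x.length x).1
      (R317.readU x.length (R317.readU x.length x).2).2 :=
    R317.parseN_PT (rd := fun _ l => readNat l) (by fun_prop) (fun _ l => R317.length_readNat_le l) h₁.fst h₂.snd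
  have h₄ := R317.parseN_PT (rd := fun (_ : List Bool) l => readNat l) (by fun_prop)
    (fun _ l => R317.length_readNat_le l) h₂.fst h₃.snd
  exact PT.pair h₁.fst (PT.pair h₂.fst (PT.pair h₃.fst h₄.fst))

theorem hyp80 {m n : ℕ} {rs : Fin m → ℕ} {cs : Fin n → ℕ} (h : ∑ i, rs i = ∑ j, cs j) (y : List Bool) :
    Hyp rs cs (marginsCode rs cs ++ y).length := by
  have h1 := length_le_codes (List.ofFn rs)
  have h2 := length_le_codes (List.ofFn cs)
  have h3 := sum_lt_codes (List.ofFn rs)
  rw [List.length_ofFn] at h1 h2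
  rw [List.sum_ofFn] at h3
  refine ⟨?_, ?_, h, h3.trans_le (Nat.pow_le_pow_right (by norm_num) ?_)⟩ <;>
    simp only [marginsCode, List.length_append] <;> omega

theorem parse80_eq {m n : ℕ} {rs : Fin m → ℕ} {cs : Fin n → ℕ} (h : ∑ i, rs i = ∑ j, cs j) (y : List Bool) :
    parse80 (marginsCode rs cs ++ y) =
      (m, n, (List.ofFn rs).map fun x : ℕ => (x : ℤ), (List.ofFn cs).map fun x : ℕ => (x : ℤ)) := by
  have hy := hyp80 h y
  generalize hL : (marginsCode rs cs ++ y).length = L at hy
  have h3 := R317.parseN_flatten readNat natCode (fun x : ℕ => (x : ℤ)) (List.ofFn rs)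
    (fun a _ r => readNat_natCode a r) (((List.ofFn cs).map natCode).flatten ++ y)
  have h4 := R317.parseN_flatten readNat natCode (fun x : ℕ => (x : ℤ)) (List.ofFn cs)
    (fun a _ r => readNat_natCode a r) y
  rw [List.length_ofFn] at h3 h4
  simp only [parse80, hL]
  simp only [marginsCode, List.append_assoc, R317.readU_natCode _ _ hy.hm, R317.readU_natCode _ _ hy.hn, h3, h4]

/-- the sampler -/
def alg80 (X₀ : Inst × ℕ × ℕ → List Bool) (step : (Inst × ℕ × ℕ) × List Bool × List Bool → List Bool) (r₀ : ℕ)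
    (p : List Bool × List Bool) : List Bool :=
  natCode (parse80 p.1).1 ++ natCode (parse80 p.1).2.1 ++
    ((dec ((parse80 p.1).1 * (parse80 p.1).2.1) p.1.length
      (run X₀ step (ctx (parse80 p.1).1 (parse80 p.1).2.1 (parse80 p.1).2.2.1 (parse80 p.1).2.2.2 p.1.length)
        (bigN p.1.length ^ r₀) (3 * (2 * bigN p.1.length)) p.2)).map fun z => natCode z.natAbs).flatten

theorem pt_alg80 {X₀ : Inst × ℕ × ℕ → List Bool} {step : (Inst × ℕ × ℕ) × List Bool × List Bool → List Bool} {r₀ : ℕ}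
    (hc : ChainSpec X₀ step r₀) : PT (alg80 X₀ step r₀) := by
  have hp : PT fun p : List Bool × List Bool => parse80 p.1 := pt_parse80.comp (by fun_prop)
  have hL : PT fun p : List Bool × List Bool => p.1.length := by fun_prop
  have hr := pt_run hc (pt_ctx hp.fst hp.snd.fst hp.snd.snd.fst hp.snd.snd.snd hL)
    (ℓ := fun p => bigN p.1.length ^ r₀) (t := fun p => 3 * (2 * bigN p.1.length)) (τ := fun p => p.2)
    (by fun_prop) (by fun_prop) (by fun_prop)
  exact PT.append (PT.append hp.fst.natCode hp.snd.fst.natCode)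
    (PT.flatten (PT.map (f := fun _ (z : ℤ) => natCode z.natAbs) (by fun_prop)
      (pt_dec (PT.nat_mul hp.fst hp.snd.fst) hL hr)))

theorem alg80_eq (X₀ : Inst × ℕ × ℕ → List Bool) (step : (Inst × ℕ × ℕ) × List Bool × List Bool → List Bool) (r₀ : ℕ)
    {m n : ℕ} {rs : Fin m → ℕ} {cs : Fin n → ℕ} (h : ∑ i, rs i = ∑ j, cs j) (y τ : List Bool) {L : ℕ}
    (hL : (marginsCode rs cs ++ y).length = L) {X : Fin m → Fin n → ℕ}
    (hX : dec (fI rs cs L).M L (run X₀ step (fI rs cs L, L, bigN L) (bigN L ^ r₀) (3 * (2 * bigN L)) τ) = flat X) :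
    alg80 X₀ step r₀ (marginsCode rs cs ++ y, τ) = matrixCode X := by
  rw [fI_M] at hX
  simp only [alg80, parse80_eq h, hL, ctx_eq, hX, matrixCode_eq]

theorem main80 {X₀ : Inst × ℕ × ℕ → List Bool}
    {step : (Inst × ℕ × ℕ) × List Bool × List Bool → List Bool} {r₀ : ℕ}
    (hc : ChainSpec X₀ step r₀) :
    ∃ (A : List Bool × List Bool → List Bool) (r : Polynomial ℕ), RandPolyTime A ∧
      ∀ (m n : ℕ) (rs : Fin m → ℕ) (cs : Fin n → ℕ) (k : ℕ), 1 ≤ k → ∑ i, rs i = ∑ j, cs j →
        (∀ ω : Fin (r.eval (marginsCode rs cs ++ List.replicate k true).length) → Bool,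
          ∃ X : Fin m → Fin n → ℕ, IsTable rs cs X ∧
            A (marginsCode rs cs ++ List.replicate k true, List.ofFn ω) = matrixCode X) ∧
        (∑ X : (i : Fin m) → (j : Fin n) → Fin (∑ i, rs i + 1),
            |uniformProb {ω : Fin (r.eval (marginsCode rs cs ++ List.replicate k true).length) → Bool |
                A (marginsCode rs cs ++ List.replicate k true, List.ofFn ω) =
                  matrixCode (fun i j => (X i j : ℕ))} -
              uniformTableWeight rs cs (fun i j => (X i j : ℕ))|) / 2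
          ≤ (2 : ℝ)⁻¹ ^ k := by
  refine ⟨alg80 X₀ step r₀, 6 * (6 * (Polynomial.X + 4) ^ 3 + 64) ^ (r₀ + 1), (pt_alg80 hc).polyTime₂, ?_⟩
  intro m n rs cs k hk htot
  have hy := hyp80 htot (List.replicate k true)
  have hkL : k ≤ (marginsCode rs cs ++ List.replicate k true).length := by simp
  have hev : ∀ L : ℕ, (6 * (6 * (Polynomial.X + 4) ^ 3 + 64) ^ (r₀ + 1) : Polynomial ℕ).eval L =
      3 * (2 * bigN L) * bigN L ^ r₀ := by
    intro L
    simp only [Polynomial.eval_mul, Polynomial.eval_pow, Polynomial.eval_add, Polynomial.eval_X,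
      Polynomial.eval_ofNat, bigN]
    ring
  rw [hev]
  have hA := fun τ X => alg80_eq X₀ step r₀ htot (List.replicate k true) τ rfl (X := X)
  generalize (marginsCode rs cs ++ List.replicate k true) = x at hy hkL hA ⊢
  generalize x.length = L at hy hkL hA ⊢
  have hout : ∀ τ, ∃ X, IsTable rs cs X ∧ dec (fI rs cs L).M L
      (run X₀ step (fI rs cs L, L, bigN L) (bigN L ^ r₀) (3 * (2 * bigN L)) τ) = flat X :=
    fun τ => hy.dec_table (hy.run_mem hc _ _ τ)
  refine ⟨fun ω => ?_, ?_⟩
  · obtain ⟨X, hX, e⟩ := hout (List.ofFn ω)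
    exact ⟨X, hX, hA _ _ e⟩
  have hterm : ∀ X : Fin m → Fin n → ℕ,
      |uniformProb {ω : Fin (3 * (2 * bigN L) * bigN L ^ r₀) → Bool |
          alg80 X₀ step r₀ (x, List.ofFn ω) = matrixCode X} - uniformTableWeight rs cs X| ≤ (1 / 2) ^ (2 * bigN L) := by
    intro X
    rw [uniformProb_eq_Ex _ fun τ => alg80 X₀ step r₀ (x, τ) = matrixCode X]
    by_cases hX : IsTable rs cs X
    · obtain ⟨Y₀, hY₀, hY⟩ := hy.enc_table hX
      have h1 := hy.run_mix hc (j := 2 * bigN L) le_rfl hY₀
      rw [hy.cnt] at h1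
      rw [uniformTableWeight, if_pos hX, Ex_congr (G := fun τ => ind
        (run X₀ step (fI rs cs L, L, bigN L) (bigN L ^ r₀) (3 * (2 * bigN L)) τ = Y₀)) fun τ _ => ind_congr ?_]
      · exact h1
      · rw [← hY _ (hy.run_mem hc _ _ τ)]
        obtain ⟨X', _, e⟩ := hout τ
        rw [hA _ _ e, e]
        exact ⟨fun h => by rw [matrixCode_inj h], fun h => by rw [flat_injective h]⟩
    · rw [uniformTableWeight, if_neg hX, Ex_congr (G := fun _ => 0) fun τ _ => ind_of_not ?_, Ex_const]
      · simp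
      · obtain ⟨X', hX', e⟩ := hout τ
        rw [hA _ _ e]
        intro h
        exact hX (matrixCode_inj h ▸ hX')
  have hsum := Finset.sum_le_card_nsmul Finset.univ (fun X : (i : Fin m) → (j : Fin n) → Fin (∑ i, rs i + 1) =>
    |uniformProb {ω : Fin (3 * (2 * bigN L) * bigN L ^ r₀) → Bool |
          alg80 X₀ step r₀ (x, List.ofFn ω) = matrixCode fun i j => (X i j : ℕ)} -
        uniformTableWeight rs cs fun i j => (X i j : ℕ)|) _ fun X _ => hterm _
  have hcard : (Finset.univ : Finset ((i : Fin m) → (j : Fin n) → Fin (∑ i, rs i + 1))).card ≤ 2 ^ bigN L := by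
    simp only [Finset.card_univ, Fintype.card_pi, Fintype.card_fin, Finset.prod_const]
    have h1 : ∑ i, rs i + 1 ≤ 2 ^ L := hy.lt
    have h2 := hy.six
    rw [fI_M] at h2
    calc ((∑ i, rs i + 1) ^ n) ^ m ≤ ((2 ^ L) ^ n) ^ m := by gcongr
      _ = 2 ^ (m * n * L) := by rw [← pow_mul, ← pow_mul]; congr 1; ring
      _ ≤ 2 ^ bigN L := Nat.pow_le_pow_right (by norm_num) (by omega)
  rw [nsmul_eq_mul] at hsum
  have h3 : (((Finset.univ : Finset ((i : Fin m) → (j : Fin n) → Fin (∑ i, rs i + 1))).card : ℕ) : ℝ) ≤ 2 ^ bigN L := by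
    exact_mod_cast hcard
  have h4 : (2 : ℝ) ^ bigN L * (1 / 2) ^ (2 * bigN L) = (2 : ℝ)⁻¹ ^ bigN L := by
    rw [two_mul, pow_add, ← mul_assoc, ← mul_pow]; norm_num
  have h5 : (2 : ℝ)⁻¹ ^ bigN L ≤ (2 : ℝ)⁻¹ ^ k :=
    pow_le_pow_of_le_one (by norm_num) (by norm_num) (hkL.trans (le_bigN L))
  have h6 := mul_le_mul_of_nonneg_right h3 (show (0 : ℝ) ≤ (1 / 2) ^ (2 * bigN L) by positivity)
  have h7 : (0 : ℝ) ≤ (2 : ℝ)⁻¹ ^ k := by positivity
  linarith

end Crest.Agent.R309
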