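import Crest.Agent.R309.MainAux
import Crest.Agent.R309.Exact
import Crest.Agent.R309.Ram
import Crest.Agent.R309.Tab
import Crest.Agent.R317.Parse

/-!
# Row 309: S0481 from the uniform chain, the compensation and the RAM loop

`ws = m :: n :: (rs ++ cs)`, `q = qOf ws ≥ 2`.  The function `G` parses `fmt ws K₀ τ pad` (`readUnary`,
`parseN readNat`, `take`, `drop`), recomputes `q` (length of the code of the words plus `2`), and uses
`L = q` (the total is `< 2 ^ q`), `N = 6 (q + 4) ^ 3 + 64`, `I = tI rs cs (fun _ _ => 2 ^ L - 1)`, `D = m n L`, `ℓ = N ^ r`,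
`t = 3 (K₀ + D + 1)`.  If `pad = 0` it outputs `outFmt true (words of dec (foldT step ℓ t X₀ τ))`, otherwise
`outFmt acc (words of dec Y)` for `(acc, Y) = slow (validS I L) step D ℓ pad K₀ t X₀ τ` (when `acc = false` output the
empty word list).  Choose `a₂` with `D, ℓ ≤ q ^ a₂` for all `q ≥ 2`, then `a₀` from `ram_loop` (`a₀ ≥ a`), then `a₁` with
`t ℓ ≤ q ^ a₁`.  `slow_spec` with `ε = (3/4) ^ t ≤ 2 ^ -(K₀ + D + 1)` gives the same `a > 0` for every table, the denominator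
of `ram_loop` is the sum of these (`= cnt * a`), hence the probability `1 / cnt`; `cnt_tI`, `numBoundedTables_congr`.
`S = m + n + clog 2 (total + 2) + 1 ≥ ws.length`, all words and table entries are `< 2 ^ S`.
-/

set_option autoImplicit false

namespace Crest.Agent.R309

open Crest.Agent.Lib.PolyTime
open Crest.Tables

open Crest.Enc

/-- parse the input format: the words, `K₀`, the tape and the padding -/
def parse81 (x : List Bool) : List ℤ × ℕ × List Bool × ℕ :=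
  let p₁ := readUnary x
  let p₂ := R317.parseN readNat p₁.1 p₁.2
  let p₃ := readUnary p₂.2
  let p₄ := readUnary p₃.2
  (p₂.1, p₃.1, p₄.2.take p₄.1, (p₄.2.drop p₄.1).length)

theorem pt_parse81 : PT parse81 := by
  have h₁ : PT fun x : List Bool => readUnary x := by fun_prop
  have h₂ := R317.parseN_PT (rd := fun (_ : List Bool) l => readNat l) (by fun_prop)
    (fun _ l => R317.length_readNat_le l) h₁.fst h₁.snd
  have h₃ := h₂.snd.readUnary
  have h₄ := h₃.snd.readUnary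
  exact PT.pair h₂.fst (PT.pair h₃.fst (PT.pair (PT.take h₄.fst h₄.snd) (PT.drop h₄.fst h₄.snd).length))

theorem parse81_fmt (ws : List ℕ) (K₀ : ℕ) (τ : List Bool) (pad : ℕ) :
    parse81 (fmt ws K₀ τ pad) = (ws.map fun x : ℕ => (x : ℤ), K₀, τ, pad) := by
  have h := R317.parseN_flatten readNat natCode (fun x : ℕ => (x : ℤ)) ws (fun a _ r => readNat_natCode a r)
  simp only [parse81, fmt, readUnary_replicate, h, List.take_left', List.drop_left', List.length_replicate]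

def mOf (w : List ℤ) : ℕ := min (w.getD 0 0).toNat w.length

def nOf81 (w : List ℤ) : ℕ := min (w.getD 1 0).toNat w.length

def qZ (w : List ℤ) : ℕ := (w.map fun z => natCode z.natAbs).flatten.length + 2

def ctxOf (w : List ℤ) : Inst × ℕ × ℕ :=
  ctx (mOf w) (nOf81 w) ((w.drop 2).take (mOf w)) (w.drop (2 + mOf w)) (qZ w)

theorem pt_ctxOf : PT ctxOf := by
  have hm : PT mOf := PT.toNat_min (by fun_prop) (by fun_prop)
  have hn : PT nOf81 := PT.toNat_min (by fun_prop) (by fun_prop)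
  have hq : PT qZ := by unfold qZ; fun_prop
  exact pt_ctx hm hn (PT.take hm (by fun_prop)) (PT.drop (PT.nat_add (PT.const 2) hm) PT.id') hq

theorem ctxOf_eq {m n : ℕ} (rs : Fin m → ℕ) (cs : Fin n → ℕ) :
    ctxOf ((m :: n :: (List.ofFn rs ++ List.ofFn cs)).map fun x : ℕ => (x : ℤ)) =
      (fI rs cs (qOf (m :: n :: (List.ofFn rs ++ List.ofFn cs))), qOf (m :: n :: (List.ofFn rs ++ List.ofFn cs)),
        bigN (qOf (m :: n :: (List.ofFn rs ++ List.ofFn cs)))) := by
  have h1 : mOf ((m :: n :: (List.ofFn rs ++ List.ofFn cs)).map fun x : ℕ => (x : ℤ)) = m := by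
    simp [mOf]; omega
  have h2 : nOf81 ((m :: n :: (List.ofFn rs ++ List.ofFn cs)).map fun x : ℕ => (x : ℤ)) = n := by
    simp [nOf81]; omega
  have h3 : ∀ ws : List ℕ, qZ (ws.map fun x : ℕ => (x : ℤ)) = qOf ws := by
    intro ws; simp [qZ, qOf, List.map_map, Function.comp_def]
  rw [← ctx_eq, ctxOf, h1, h2, h3]
  congr 1
  · simp only [List.map_cons, List.drop_succ_cons, List.drop_zero, List.map_append]
    exact List.take_left' (by simp)
  · rw [add_comm 2 m]
    simp only [List.map_cons, List.drop_succ_cons, List.map_append]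
    exact List.drop_left' (by simp)

theorem hyp81 {m n : ℕ} {rs : Fin m → ℕ} {cs : Fin n → ℕ} (h : ∑ i, rs i = ∑ j, cs j) :
    Hyp rs cs (qOf (m :: n :: (List.ofFn rs ++ List.ofFn cs))) := by
  have h1 := length_le_codes (List.ofFn rs)
  have h2 := length_le_codes (List.ofFn cs)
  have h3 := sum_lt_codes (List.ofFn rs)
  rw [List.length_ofFn] at h1 h2
  rw [List.sum_ofFn] at h3
  refine ⟨?_, ?_, h, h3.trans_le (Nat.pow_le_pow_right (by norm_num) ?_)⟩ <;>
    simp only [qOf, List.map_cons, List.map_append, List.flatten_cons, List.flatten_append, List.length_append] <;>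
    omega

/-- output of a list of integers -/
def outZ (acc : Bool) (l : List ℤ) : List Bool := outFmt acc (l.map Int.natAbs)

theorem pt_outZ {α : Type} [Enc α] {acc : α → Bool} {l : α → List ℤ} (h₁ : PT acc) (h₂ : PT l) :
    PT fun a => outZ (acc a) (l a) := by
  have : PT fun a => acc a :: ((l a).map fun z : ℤ =>
      (z.natAbs.bits.reverse.flatMap fun b => [true, b]) ++ [false]).flatten := by fun_prop
  exact this.of_eq fun a => by simp [outZ, outFmt, List.map_map, Function.comp_def]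

section

variable (X₀ : Inst × ℕ × ℕ → List Bool) (step : (Inst × ℕ × ℕ) × List Bool × List Bool → List Bool) (r₀ : ℕ)

/-- the fast branch -/
def fast81 (c : Inst × ℕ × ℕ) (K₀ : ℕ) (τ : List Bool) : List Bool :=
  run X₀ step c (c.2.2 ^ r₀) (3 * (K₀ + c.1.M * c.2.1 + 1)) τ

/-- the slow branch -/
def slow81 (c : Inst × ℕ × ℕ) (K₀ : ℕ) (τ : List Bool) (pad : ℕ) : Bool × List Bool :=
  slow (validS c.1 c.2.1) (fun X ω => step (c, X, ω)) (c.1.M * c.2.1) (c.2.2 ^ r₀) pad K₀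
    (3 * (K₀ + c.1.M * c.2.1 + 1)) (X₀ c) τ

def core81 (c : Inst × ℕ × ℕ) (K₀ : ℕ) (τ : List Bool) (pad : ℕ) : List Bool :=
  if pad = 0 then outZ true (dec c.1.M c.2.1 (fast81 X₀ step r₀ c K₀ τ))
  else outZ (slow81 X₀ step r₀ c K₀ τ pad).1
    (bif (slow81 X₀ step r₀ c K₀ τ pad).1 then dec c.1.M c.2.1 (slow81 X₀ step r₀ c K₀ τ pad).2 else [])

def alg81 (x : List Bool) : List Bool :=
  core81 X₀ step r₀ (ctxOf (parse81 x).1) (parse81 x).2.1 (parse81 x).2.2.1 (parse81 x).2.2.2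

variable {X₀ step r₀}

theorem pt_alg81 (hc : ChainSpec X₀ step r₀) : PT (alg81 X₀ step r₀) := by
  have key : PT fun p : (Inst × ℕ × ℕ) × ℕ × List Bool × ℕ => core81 X₀ step r₀ p.1 p.2.1 p.2.2.1 p.2.2.2 := by
    have hf : PT fun p : (Inst × ℕ × ℕ) × ℕ × List Bool × ℕ => fast81 X₀ step r₀ p.1 p.2.1 p.2.2.1 :=
      pt_run hc (by fun_prop) (by fun_prop) (by fun_prop) (by fun_prop)
    have hs : PT fun p : (Inst × ℕ × ℕ) × ℕ × List Bool × ℕ => slow81 X₀ step r₀ p.1 p.2.1 p.2.2.1 p.2.2.2 :=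
      pt_slow (valid := fun p : (Inst × ℕ × ℕ) × ℕ × List Bool × ℕ => validS p.1.1 p.1.2.1)
        (step := fun p X ω => step (p.1, X, ω)) (by fun_prop)
        (hc.pt.comp (g := fun p : ((Inst × ℕ × ℕ) × ℕ × List Bool × ℕ) × List Bool × List Bool =>
          (p.1.1, p.2.1, p.2.2)) (by fun_prop))
        (by fun_prop) (by fun_prop) (by fun_prop) (by fun_prop) (by fun_prop) (hc.pt₀.comp (by fun_prop)) (by fun_prop)
    exact PT.ite (by fun_prop) (pt_outZ (PT.const _) (pt_dec (by fun_prop) (by fun_prop) hf))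
      (pt_outZ hs.fst (PT.cond hs.fst (pt_dec (by fun_prop) (by fun_prop) hs.snd) (PT.const _)))
  exact key.comp (g := fun x => (ctxOf (parse81 x).1, (parse81 x).2.1, (parse81 x).2.2.1, (parse81 x).2.2.2))
    (PT.pair (pt_ctxOf.comp pt_parse81.fst) (PT.pair pt_parse81.snd.fst
      (PT.pair pt_parse81.snd.snd.fst pt_parse81.snd.snd.snd)))

end

theorem bigN_le {q : ℕ} (hq : 2 ≤ q) : bigN q ≤ q ^ 11 := by
  have h1 : (q + 4) ^ 3 ≤ (3 * q) ^ 3 := Nat.pow_le_pow_left (by omega) 3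
  have h2 : 2 ^ 3 ≤ q ^ 3 := Nat.pow_le_pow_left hq 3
  have h3 : 2 ^ 8 ≤ q ^ 8 := Nat.pow_le_pow_left hq 8
  have h4 : 2 ^ 8 * q ^ 3 ≤ q ^ 8 * q ^ 3 := Nat.mul_le_mul_right _ h3
  rw [← pow_add] at h4
  rw [mul_pow] at h1
  unfold bigN
  norm_num at h1 h2 h4 ⊢
  omega

theorem sum_ind_eq {V : Finset (List Bool)} {Z : List Bool} {p : Prop} (h : p → Z ∈ V) :
    ∑ Y ∈ V, ind (p ∧ Z = Y) = ind p := by
  by_cases hp : p
  · rw [Finset.sum_eq_single_of_mem Z (h hp) fun Y _ hY => ind_of_not fun e => hY e.2.symm]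
    exact ind_congr (by simp)
  · rw [ind_of_not hp]
    exact Finset.sum_eq_zero fun Y _ => ind_of_not fun e => hp e.1

theorem main81 {X₀ : Inst × ℕ × ℕ → List Bool}
    {step : (Inst × ℕ × ℕ) × List Bool × List Bool → List Bool} {r₀ : ℕ}
    (hc : ChainSpec X₀ step r₀) :
    ∃ (P : Crest.WordRAM.Program) (c₀ c₁ C d : ℕ),
      ∀ (m n : ℕ) (rs : Fin m → ℕ) (cs : Fin n → ℕ), ∑ i, rs i = ∑ j, cs j →
        Crest.WordRAM.expectedTime P (c₀ * (m + n + Nat.clog 2 (∑ i, rs i + 2) + 1) ^ c₁)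
            (m :: n :: (List.ofFn rs ++ List.ofFn cs))
          ≤ ((C * (m + n + Nat.clog 2 (∑ i, rs i + 2) + 1) ^ d : ℕ) : ENNReal) ∧
        (∀ (ρ : ℕ → ℕ) (T : ℕ) (out : List ℕ),
          Crest.WordRAM.HaltsWithin P (c₀ * (m + n + Nat.clog 2 (∑ i, rs i + 2) + 1) ^ c₁) ρ
            (m :: n :: (List.ofFn rs ++ List.ofFn cs)) T out →
          ∃ X : Fin m → Fin n → ℕ, IsTable rs cs X ∧ out = (List.ofFn fun i => List.ofFn (X i)).flatten) ∧
        ∀ X : Fin m → Fin n → ℕ, IsTable rs cs X →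
          Crest.WordRAM.probHaltsWith P (c₀ * (m + n + Nat.clog 2 (∑ i, rs i + 2) + 1) ^ c₁)
              (m :: n :: (List.ofFn rs ++ List.ofFn cs))
              (fun out => out = (List.ofFn fun i => List.ofFn (X i)).flatten)
            = 1 / (numBoundedTables rs cs (fun _ _ => ∑ i, rs i) : ℝ) := by
  obtain ⟨a₀, hram⟩ := ram_loop (alg81 X₀ step r₀) (pt_alg81 hc) (11 * r₀ + 3)
  obtain ⟨P, c₀, c₁, C, d, hP⟩ := hram a₀ (a₀ + 7 + 11 * r₀) le_rfl
  refine ⟨P, c₀, c₁, C, d, fun m n rs cs htot => ?_⟩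
  have hy := hyp81 htot
  have hctx := ctxOf_eq rs cs
  have hq2 : 2 ≤ qOf (m :: n :: (List.ofFn rs ++ List.ofFn cs)) := by unfold qOf; omega
  set ws := m :: n :: (List.ofFn rs ++ List.ofFn cs) with hws
  have hP := hP (m + n + Nat.clog 2 (∑ i, rs i + 2) + 1) ws
  have hfmt := parse81_fmt ws
  have hlen : ws.length = m + n + 2 := by simp [hws]
  have hmem : ∀ x ∈ ws, x = m ∨ x = n ∨ x ≤ ∑ i, rs i := by
    intro x hx
    simp only [hws, List.mem_cons, List.mem_append, List.mem_ofFn] at hx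
    rcases hx with rfl | rfl | ⟨i, rfl⟩ | ⟨j, rfl⟩
    · exact Or.inl rfl
    · exact Or.inr (Or.inl rfl)
    · exact Or.inr (Or.inr (Finset.single_le_sum (f := rs) (fun i _ => Nat.zero_le _) (Finset.mem_univ i)))
    · exact Or.inr (Or.inr (htot ▸ Finset.single_le_sum (f := cs) (fun i _ => Nat.zero_le _) (Finset.mem_univ j)))
  generalize qOf ws = q at hy hctx hq2 hP
  set S := m + n + Nat.clog 2 (∑ i, rs i + 2) + 1 with hS
  have hclog : 0 < Nat.clog 2 (∑ i, rs i + 2) := Nat.clog_pos (by norm_num) (by omega)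
  have htS : ∑ i, rs i < 2 ^ S := by
    have h1 : ∑ i, rs i + 2 ≤ 2 ^ Nat.clog 2 (∑ i, rs i + 2) := Nat.le_pow_clog (by norm_num) _
    have h2 : 2 ^ Nat.clog 2 (∑ i, rs i + 2) ≤ 2 ^ S := Nat.pow_le_pow_right (by norm_num) (by omega)
    omega
  set c : Inst × ℕ × ℕ := (fI rs cs q, q, bigN q) with hcd
  set K₀ := q ^ a₀ with hK₀
  set pad := 2 ^ q ^ (11 * r₀ + 3) with hpad
  set D := (fI rs cs q).M * q with hD
  have hq1 : 1 ≤ q := by omega
  have hK : 0 < K₀ := by positivity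
  have hD3 : D ≤ q ^ 3 := by
    rw [hD, fI_M]
    calc m * n * q ≤ q * q * q := by have := hy.hm; have := hy.hn; gcongr
      _ = q ^ 3 := by ring
  have hℓ : bigN q ^ r₀ ≤ q ^ (11 * r₀) := by rw [pow_mul]; exact Nat.pow_le_pow_left (bigN_le hq2) _
  have hL : 3 * (K₀ + D + 1) * bigN q ^ r₀ ≤ q ^ (a₀ + 7 + 11 * r₀) := by
    rw [pow_add]
    refine Nat.mul_le_mul ?_ hℓ
    have h1 : q ^ a₀ ≤ q ^ (a₀ + 3) := Nat.pow_le_pow_right hq1 (by omega)
    have h2 : q ^ 3 ≤ q ^ (a₀ + 3) := Nat.pow_le_pow_right hq1 (by omega)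
    have h3 : 1 ≤ q ^ (a₀ + 3) := Nat.one_le_pow _ _ hq1
    have h4 : 2 ^ 4 ≤ q ^ 4 := Nat.pow_le_pow_left hq2 4
    have h5 : q ^ (a₀ + 3) * 2 ^ 4 ≤ q ^ (a₀ + 3) * q ^ 4 := Nat.mul_le_mul_left _ h4
    rw [← pow_add, show a₀ + 3 + 4 = a₀ + 7 by ring] at h5
    omega
  have hfast : ∀ τ, fast81 X₀ step r₀ c K₀ τ ∈ fV rs cs q := fun τ => hy.run_mem hc _ _ τ
  obtain ⟨hslow, a, ha, hsum⟩ := slow_spec (validS (fI rs cs q) q) (fun X ω => step (c, X, ω)) (D := D)
    (ℓ := bigN q ^ r₀) (pad := pad) (K₀ := K₀) (t := 3 * (K₀ + D + 1)) (L := q ^ (a₀ + 7 + 11 * r₀)) hK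
    (Nat.pow_le_pow_right (by norm_num) (hD3.trans (Nat.pow_le_pow_right hq1 (by omega))))
    (Nat.pow_le_pow_right (by norm_num) (hℓ.trans (Nat.pow_le_pow_right hq1 (by omega)))) hL
    (fun X hX ω => hc.mem _ _ _ _ _ hX) (hy.start_mem hc) (ε := (1 / 2) ^ (K₀ + D + 1))
    (by
      rw [pow_succ, pow_add]
      have h1 : (2 : ℝ) ^ K₀ * (1 / 2) ^ K₀ = 1 := by rw [← mul_pow]; norm_num
      have h2 : (2 : ℝ) ^ D * (1 / 2) ^ D = 1 := by rw [← mul_pow]; norm_num
      calc (2 : ℝ) ^ K₀ * 2 ^ D * (2 * ((1 / 2) ^ K₀ * (1 / 2) ^ D * (1 / 2)))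
          = (2 ^ K₀ * (1 / 2) ^ K₀) * (2 ^ D * (1 / 2) ^ D) := by ring
        _ ≤ 1 := by rw [h1, h2, mul_one])
    (fun Y hY => by
      rw [card_Val hy.wf (fI_full rs cs q)]
      exact hy.run_mix hc hL hY)
  change ∀ τ : List Bool, τ.length = _ → (slow81 X₀ step r₀ c K₀ τ pad).1 = true →
    (slow81 X₀ step r₀ c K₀ τ pad).2 ∈ fV rs cs q at hslow
  change ∀ Y ∈ fV rs cs q, (1 - (1 / 2) ^ K₀) * Ex _ (fun τ => ind (fast81 X₀ step r₀ c K₀ τ = Y)) +
    (1 / 2) ^ K₀ * Ex _ (fun τ => ind ((slow81 X₀ step r₀ c K₀ τ pad).1 = true ∧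
      (slow81 X₀ step r₀ c K₀ τ pad).2 = Y)) = a at hsum
  have hwords : ∀ Y ∈ fV rs cs q, ∃ X, IsTable rs cs X ∧
      (dec (fI rs cs q).M q Y).map Int.natAbs = (List.ofFn fun i => List.ofFn (X i)).flatten := by
    intro Y hY
    obtain ⟨X, hX, e⟩ := hy.dec_table hY
    exact ⟨X, hX, by rw [e, map_natAbs_flat]⟩
  have hsize : ∀ Y ∈ fV rs cs q, ((dec (fI rs cs q).M q Y).map Int.natAbs).length ≤ ws.length ^ 2 ∧
      ∀ x ∈ (dec (fI rs cs q).M q Y).map Int.natAbs, x < 2 ^ S := by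
    intro Y hY
    refine ⟨?_, ?_⟩
    · simp only [dec, List.length_map, length_tab, fI_M, hlen]
      nlinarith
    · obtain ⟨X, hX, e⟩ := hwords Y hY
      rw [e]
      intro x hx
      simp only [List.mem_flatten, List.mem_ofFn] at hx
      obtain ⟨l, ⟨i, rfl⟩, hx⟩ := hx
      simp only [List.mem_ofFn] at hx
      obtain ⟨j, rfl⟩ := hx
      exact (table_le hX i j).trans_lt htS
  obtain ⟨h1, h2, h3⟩ := hP (fun τ => (slow81 X₀ step r₀ c K₀ τ pad).1)
    (fun b τ => bif b then (bif (slow81 X₀ step r₀ c K₀ τ pad).1 then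
        dec (fI rs cs q).M q (slow81 X₀ step r₀ c K₀ τ pad).2 else []).map Int.natAbs
      else (dec (fI rs cs q).M q (fast81 X₀ step r₀ c K₀ τ)).map Int.natAbs)
    (by omega) (by omega)
    (fun x hx => by
      have hm : m < 2 ^ S := (show m < S by omega).trans Nat.lt_two_pow_self
      have hn : n < 2 ^ S := (show n < S by omega).trans Nat.lt_two_pow_self
      rcases hmem x hx with h | h | h <;> omega)
    (fun τ _ => by
      have hp : pad ≠ 0 := by positivity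
      simp only [alg81, hfmt, hctx, core81, if_neg hp, if_true, cond_true, cond_false, outZ]
      exact ⟨rfl, rfl⟩)
    (fun b τ hτ => by
      cases b
      · exact hsize _ (hfast τ)
      · simp only [cond_true]
        cases hb : (slow81 X₀ step r₀ c K₀ τ pad).1
        · simp
        · exact hsize _ (hslow τ hτ hb))
  refine ⟨h1, fun ρ T out ho => ?_, fun X hX => ?_⟩
  · obtain ⟨τ, hτ, h | ⟨hb, h⟩⟩ := h2 ρ T out ho
    · rw [h]; exact hwords _ (hfast τ)
    · rw [h]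
      simp only [hb, cond_true]
      exact hwords _ (hslow τ hτ hb)
  · obtain ⟨Y₀, hY₀, hY⟩ := hy.enc_table hX
    have hiff : ∀ Y ∈ fV rs cs q, ((dec (fI rs cs q).M q Y).map Int.natAbs =
        (List.ofFn fun i => List.ofFn (X i)).flatten ↔ Y = Y₀) := by
      intro Y hYV
      rw [← hY Y hYV]
      obtain ⟨X', _, e⟩ := hy.dec_table hYV
      rw [e, map_natAbs_flat]
      exact ⟨fun h => by rw [flat, flat, h], fun h => by rw [flat_injective h]⟩
    rw [h3]
    simp only [cond_true, cond_false]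
    rw [Ex_congr (G := fun τ => ind (fast81 X₀ step r₀ c K₀ τ = Y₀)) fun τ _ => ind_congr (hiff _ (hfast τ)),
      Ex_congr (F := fun τ => ind ((slow81 X₀ step r₀ c K₀ τ pad).1 = true ∧ _))
        (G := fun τ => ind ((slow81 X₀ step r₀ c K₀ τ pad).1 = true ∧ (slow81 X₀ step r₀ c K₀ τ pad).2 = Y₀))
        fun τ hτ => ind_congr (and_congr_right fun hb => by
          simp only [hb, cond_true]; exact hiff _ (hslow τ hτ hb)), hsum Y₀ hY₀]
    have hden : (1 - (1 / 2 : ℝ) ^ K₀) + (1 / 2) ^ K₀ * Ex (q ^ (a₀ + 7 + 11 * r₀))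
        (fun τ => ind ((slow81 X₀ step r₀ c K₀ τ pad).1 = true)) = (fV rs cs q).card * a := by
      rw [← nsmul_eq_mul, ← Finset.sum_const, ← Finset.sum_congr rfl hsum, Finset.sum_add_distrib, ← Finset.mul_sum,
        ← Finset.mul_sum, ← Ex_sum, ← Ex_sum,
        Ex_congr (F := fun τ => ∑ Y ∈ fV rs cs q, ind (fast81 X₀ step r₀ c K₀ τ = Y)) (G := fun _ => 1) fun τ _ => ?_,
        Ex_const, mul_one, Ex_congr fun τ hτ => sum_ind_eq (hslow τ hτ)]
      have := sum_ind_eq (p := True) fun _ => hfast τ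
      simpa [ind_of trivial] using this
    rw [hden, card_Val hy.wf (fI_full rs cs q), hy.cnt]
    field_simp

end Crest.Agent.R309
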