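import Crest.Agent.R309.Str
import Crest.Agent.R309.Tab
import Crest.Agent.R317.Parse

/-!
# Row 309: the uniform chain on contingency tables (shared by S0480 and S0481)
-/

set_option autoImplicit false

namespace Crest.Agent.R309

open Finset Crest.Agent.Lib.PolyTime Crest.Enc Crest.Tables

/-- the size parameter -/
def bigN (L : ℕ) : ℕ := 6 * (L + 4) ^ 3 + 64

/-- the context of the chain -/
def ctx (m n : ℕ) (rs cs : List ℤ) (L : ℕ) : Inst × ℕ × ℕ :=
  (tabInst m n rs cs (List.replicate (m * n) 0) (List.replicate (m * n) (2 ^ L - 1)), L, bigN L)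

@[fun_prop] theorem pt_bigN {α : Type} [Enc α] {L : α → ℕ} (hL : PT L) : PT fun a => bigN (L a) := by
  unfold bigN; fun_prop

@[fun_prop] theorem pt_ctx {α : Type} [Enc α] {m n L : α → ℕ} {rs cs : α → List ℤ} (hm : PT m) (hn : PT n)
    (h₁ : PT rs) (h₂ : PT cs) (hL : PT L) : PT fun a => ctx (m a) (n a) (rs a) (cs a) (L a) := by
  unfold ctx; fun_prop

theorem length_natCode (a : ℕ) : (natCode a).length = 2 * a.size + 2 := by
  have : natCode a = pairR a.bits [false] := by simp [natCode, pairR, List.flatMap]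
  rw [this, length_pairR, Nat.size_eq_bits_len]
  simp

theorem length_le_codes (l : List ℕ) : l.length ≤ (l.map natCode).flatten.length := by
  induction l with
  | nil => simp
  | cons a l ih =>
    simp only [List.map_cons, List.flatten_cons, List.length_append, List.length_cons, length_natCode]
    omega

theorem sum_lt_codes (l : List ℕ) : l.sum < 2 ^ (l.map natCode).flatten.length := by
  induction l with
  | nil => simp
  | cons a l ih =>
    simp only [List.map_cons, List.flatten_cons, List.length_append, List.sum_cons, length_natCode]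
    set k := (l.map natCode).flatten.length
    have h1 : a < 2 ^ a.size := Nat.lt_size_self a
    have h2 : 2 ^ a.size ≤ 2 ^ (2 * a.size + 1 + k) := Nat.pow_le_pow_right (by norm_num) (by omega)
    have h3 : 2 ^ k ≤ 2 ^ (2 * a.size + 1 + k) := Nat.pow_le_pow_right (by norm_num) (by omega)
    have h4 : 2 ^ (2 * a.size + 2 + k) = 2 * 2 ^ (2 * a.size + 1 + k) := by
      rw [show 2 * a.size + 2 + k = 2 * a.size + 1 + k + 1 by ring, pow_succ]; ring
    omega

theorem flat_const (m n B : ℕ) : flat (fun (_ : Fin m) (_ : Fin n) => B) = List.replicate (m * n) (B : ℤ) := by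
  rw [List.eq_replicate_iff]
  refine ⟨length_flat _, fun z hz => ?_⟩
  simp only [flat, List.mem_map, List.mem_flatten, List.mem_ofFn] at hz
  obtain ⟨x, ⟨l, ⟨i, rfl⟩, hx⟩, rfl⟩ := hz
  simp only [List.mem_ofFn] at hx
  obtain ⟨j, rfl⟩ := hx
  rfl

theorem map_natAbs_flat {m n : ℕ} (X : Fin m → Fin n → ℕ) :
    (flat X).map Int.natAbs = (List.ofFn fun i => List.ofFn (X i)).flatten := by
  simp [flat, List.map_map, Function.comp_def]

section run

variable {X₀ : Inst × ℕ × ℕ → List Bool} {step : (Inst × ℕ × ℕ) × List Bool × List Bool → List Bool} {r₀ : ℕ}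

/-- `t` steps of the chain -/
def run (X₀ : Inst × ℕ × ℕ → List Bool) (step : (Inst × ℕ × ℕ) × List Bool × List Bool → List Bool)
    (c : Inst × ℕ × ℕ) (ℓ t : ℕ) (τ : List Bool) : List Bool :=
  foldT (fun _ X ω => step (c, X, ω)) ℓ t (X₀ c) τ

theorem pt_run (hc : ChainSpec X₀ step r₀) {α : Type} [Enc α] {c : α → Inst × ℕ × ℕ} {ℓ t : α → ℕ}
    {τ : α → List Bool} (h₁ : PT c) (h₂ : PT ℓ) (h₃ : PT t) (h₄ : PT τ) :
    PT fun a => run X₀ step (c a) (ℓ a) (t a) (τ a) := by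
  have hX : PT fun a => X₀ (c a) := hc.pt₀.comp h₁
  refine pt_foldT (step := fun a _ X ω => step (c a, X, ω))
    (hc.pt.comp (g := fun p : α × ℕ × List Bool × List Bool => (c p.1, p.2.2.1, p.2.2.2)) (by fun_prop))
    h₂ h₃ hX h₄ (B := fun a => 3 * ((X₀ (c a)).length + (c a).1.M * (c a).2.1))
    (PB.of_PT (PT.nat_mul (PT.const 3) (PT.nat_add hX.length (PT.nat_mul (Inst.pt_M h₁.fst) h₁.snd.fst))))
    fun a i _ => ?_
  rw [size_list_bool]
  refine Nat.mul_le_mul_left 3 ?_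
  induction i with
  | zero => simp [foldT_zero]
  | succ i ih =>
    rw [foldT_succ]
    refine (hc.len _ _ _).trans (max_le (ih (by omega)) (by omega))

end run

section tables

variable {m n : ℕ} {rs : Fin m → ℕ} {cs : Fin n → ℕ} {L : ℕ}

/-- the standing hypotheses -/
structure Hyp (rs : Fin m → ℕ) (cs : Fin n → ℕ) (L : ℕ) : Prop where
  hm : m ≤ L
  hn : n ≤ L
  tot : ∑ i, rs i = ∑ j, cs j
  lt : ∑ i, rs i < 2 ^ L

/-- the instance -/
abbrev fI (rs : Fin m → ℕ) (cs : Fin n → ℕ) (L : ℕ) : Inst := tI rs cs fun _ _ => 2 ^ L - 1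

theorem ctx_eq (rs : Fin m → ℕ) (cs : Fin n → ℕ) (L : ℕ) :
    ctx m n ((List.ofFn rs).map fun x : ℕ => (x : ℤ)) ((List.ofFn cs).map fun x : ℕ => (x : ℤ)) L =
      (fI rs cs L, L, bigN L) := by
  have h : ((2 ^ L - 1 : ℕ) : ℤ) = 2 ^ L - 1 := by
    rw [Nat.cast_sub Nat.one_le_two_pow]; simp
  simp only [ctx, fI, tI, flat_const, h, List.map_ofFn, Function.comp_def]

theorem fI_M (rs : Fin m → ℕ) (cs : Fin n → ℕ) (L : ℕ) : (fI rs cs L).M = m * n := tabInst_M _ _ _ _ _ _

theorem le_bigN (L : ℕ) : L ≤ bigN L := by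
  unfold bigN; nlinarith [Nat.zero_le (L ^ 3), Nat.zero_le (L ^ 2)]

theorem Hyp.six (h : Hyp rs cs L) : 6 * ((fI rs cs L).M * L) ≤ bigN L := by
  rw [fI_M]
  have h1 : m * n * L ≤ (L + 4) ^ 3 := by
    calc m * n * L ≤ (L + 4) * (L + 4) * (L + 4) := by
          have := h.hm; have := h.hn; gcongr <;> omega
      _ = _ := by ring
  unfold bigN; omega

theorem Hyp.wf (h : Hyp rs cs L) : (fI rs cs L).WF (bigN L) := by
  have h2 : 2 ^ L ≤ 2 ^ bigN L := Nat.pow_le_pow_right (by norm_num) (le_bigN L)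
  refine tI_wf rs cs _ ?_ (fun i => ?_) (fun j => ?_) fun i j => (Nat.sub_le _ _).trans h2
  · have h1 : m * n ≤ L * L := Nat.mul_le_mul h.hm h.hn
    have := h.hm; have := h.hn
    unfold bigN; nlinarith [Nat.zero_le (L ^ 3)]
  · have := single_le_sum (f := rs) (fun i _ => Nat.zero_le _) (mem_univ i)
    have := h.lt; omega
  · have := single_le_sum (f := cs) (fun i _ => Nat.zero_le _) (mem_univ j)
    have := h.lt; have := h.tot; omega

theorem fI_full (rs : Fin m → ℕ) (cs : Fin n → ℕ) (L : ℕ) : Full (fI rs cs L) L := by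
  intro e he
  rw [fI_M] at he
  have h : ((2 ^ L - 1 : ℕ) : ℤ) = 2 ^ L - 1 := by
    rw [Nat.cast_sub Nat.one_le_two_pow]; simp
  simp [fI, tI, tabInst, Inst.loN, Inst.hiN, Inst.los, Inst.his, flat_const, h, List.getD_eq_getElem?_getD, he]

theorem table_le {X : Fin m → Fin n → ℕ} (hX : IsTable rs cs X) (i : Fin m) (j : Fin n) : X i j ≤ ∑ i, rs i := by
  have h1 := single_le_sum (f := X i) (fun i _ => Nat.zero_le _) (mem_univ j)
  have h2 := single_le_sum (f := rs) (fun i _ => Nat.zero_le _) (mem_univ i)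
  rw [hX.1 i] at h1
  omega

theorem Hyp.mem_sol (h : Hyp rs cs L) {X : Fin m → Fin n → ℕ} (hX : IsTable rs cs X) :
    (fI rs cs L).vec (flat X) ∈ (fI rs cs L).sol :=
  (flat_mem_sol rs cs _ X).2 ⟨hX, fun i j => by have := table_le hX i j; have := h.lt; omega⟩

theorem Hyp.nonempty (h : Hyp rs cs L) : (fI rs cs L).sol.Nonempty := by
  obtain ⟨X, hX⟩ := exists_isTable rs cs h.tot
  exact ⟨_, h.mem_sol hX⟩

theorem Hyp.cnt (h : Hyp rs cs L) : (fI rs cs L).cnt = numBoundedTables rs cs fun _ _ => ∑ i, rs i := by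
  rw [cnt_tI]
  exact numBoundedTables_congr rs cs (by have := h.lt; omega) le_rfl

/-- the valid strings -/
abbrev fV (rs : Fin m → ℕ) (cs : Fin n → ℕ) (L : ℕ) : Finset (List Bool) :=
  Val (validS (fI rs cs L) L) ((fI rs cs L).M * L)

theorem Hyp.dec_table (h : Hyp rs cs L) {Y : List Bool} (hY : Y ∈ fV rs cs L) :
    ∃ X, IsTable rs cs X ∧ dec (fI rs cs L).M L Y = flat X := by
  have h1 := dec_mem_sol h.wf (fI_full rs cs L) hY
  obtain ⟨X, hX⟩ := exists_flat rs cs _ h1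
  rw [ofFn_vec _ (by simp [dec])] at hX
  rw [hX] at h1
  exact ⟨X, ((flat_mem_sol rs cs _ X).1 h1).1, hX⟩

theorem Hyp.enc_table (h : Hyp rs cs L) {X : Fin m → Fin n → ℕ} (hX : IsTable rs cs X) :
    ∃ Y₀ ∈ fV rs cs L, ∀ Y ∈ fV rs cs L, (dec (fI rs cs L).M L Y = flat X ↔ Y = Y₀) := by
  have h1 := encS_mem_Val h.wf (fI_full rs cs L) (h.mem_sol hX)
  rw [ofFn_vec _ (by rw [length_flat, fI_M])] at h1
  refine ⟨_, h1.1, fun Y hY => ⟨fun e => ?_, fun e => by rw [e, h1.2]⟩⟩
  exact dec_inj (mem_Val.1 hY).1 (mem_Val.1 h1.1).1 (by rw [e, h1.2])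

variable {X₀ : Inst × ℕ × ℕ → List Bool} {step : (Inst × ℕ × ℕ) × List Bool × List Bool → List Bool} {r₀ : ℕ}

theorem Hyp.start_mem (h : Hyp rs cs L) (hc : ChainSpec X₀ step r₀) : X₀ (fI rs cs L, L, bigN L) ∈ fV rs cs L :=
  hc.mem₀ _ _ _ h.wf (fI_full rs cs L) h.nonempty

theorem Hyp.run_mem (h : Hyp rs cs L) (hc : ChainSpec X₀ step r₀) (ℓ t : ℕ) (τ : List Bool) :
    run X₀ step (fI rs cs L, L, bigN L) ℓ t τ ∈ fV rs cs L := by
  unfold run
  induction t with
  | zero => exact h.start_mem hc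
  | succ t ih => rw [foldT_succ]; exact hc.mem _ _ _ _ _ ih

theorem Hyp.run_mix (h : Hyp rs cs L) (hc : ChainSpec X₀ step r₀) {j L' : ℕ} (hL : 3 * j * bigN L ^ r₀ ≤ L')
    {Y : List Bool} (hY : Y ∈ fV rs cs L) :
    |Ex L' (fun τ => ind (run X₀ step (fI rs cs L, L, bigN L) (bigN L ^ r₀) (3 * j) τ = Y)) -
      1 / ((fI rs cs L).cnt : ℝ)| ≤ (1 / 2) ^ j := by
  refine (hc.mix _ _ _ h.wf (fI_full rs cs L) (by unfold bigN; omega) (le_bigN L) h.six _ (h.start_mem hc) Y hY
    _ _ hL).trans ?_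
  rw [pow_mul]
  exact pow_le_pow_left₀ (by norm_num) (by norm_num) j

end tables

end Crest.Agent.R309
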